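import Vale.Agent.P101.ZStab.Band.Rot

/-!
# Loops in the unit sphere of `ℂ^S`, `2 ≤ |S|`, contract, and homotopies lift to unitaries
-/

open Matrix Complex

namespace Vale.P101.ZS.BandP

noncomputable section

/-- The unit interval. -/
abbrev I01 : Set ℝ := Set.Icc (0 : ℝ) 1

variable {ι : Type*} [Fintype ι] [DecidableEq ι]

/-- A unit vector supported on `S`. -/
def UnitOn (S : Finset ι) (v : ι → ℂ) : Prop := star v ⬝ᵥ v = 1 ∧ ∀ i ∉ S, v i = 0

lemma unitOn_single {S : Finset ι} {k : ι} (hk : k ∈ S) : UnitOn S (Pi.single k (1 : ℂ)) := by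
  refine ⟨by simp, fun i hi => Pi.single_eq_of_ne (fun h : i = k => hi (h ▸ hk)) _⟩

lemma exists_modulus (G : I01 × I01 × I01 → ℝ) (hG : Continuous G) :
    ∃ δ : ℝ, 0 < δ ∧ ∀ a b : I01 × I01 × I01, dist a b < δ → dist (G a) (G b) < 1 := by
  obtain ⟨δ, hδ, hu⟩ := Metric.uniformContinuous_iff.1
    (CompactSpace.uniformContinuous_of_continuous hG) 1 one_pos
  exact ⟨δ, hδ, fun a b h => hu h⟩

omit [DecidableEq ι] in
/-- A uniform modulus keeping the inner products of a compact family positive. -/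
lemma exists_mesh (K : C(I01 × I01, ι → ℂ)) (hK : ∀ x, star (K x) ⬝ᵥ K x = 1) :
    ∃ n : ℕ, 0 < n ∧ ∀ (t h h' : I01), |(h : ℝ) - h'| ≤ 1 / n →
      0 < (star (K (h, t)) ⬝ᵥ K (h', t)).re := by
  have hG : Continuous fun x : I01 × I01 × I01 =>
      (star (K (x.1, x.2.2)) ⬝ᵥ K (x.2.1, x.2.2)).re := by
    have c1 : Continuous fun x : I01 × I01 × I01 => (x.1, x.2.2) := by fun_prop
    have c2 : Continuous fun x : I01 × I01 × I01 => (x.2.1, x.2.2) := by fun_prop
    exact continuous_re.comp ((K.continuous.comp c1).star.dotProduct (K.continuous.comp c2))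
  obtain ⟨δ, hδ, hu⟩ := exists_modulus _ hG
  obtain ⟨n, hn⟩ := exists_nat_gt (1 / δ)
  have hn0 : 0 < n := by
    rcases Nat.eq_zero_or_pos n with rfl | h
    · exact absurd hn (not_lt.2 (by simp; positivity))
    · exact h
  refine ⟨n, hn0, fun t h h' hh => ?_⟩
  have hd : dist ((h, h', t) : I01 × I01 × I01) (h, h, t) < δ := by
    simp only [Prod.dist_eq, dist_self, max_lt_iff]
    refine ⟨hδ, ?_, hδ⟩
    rw [Subtype.dist_eq, Real.dist_eq, abs_sub_comm]
    refine lt_of_le_of_lt hh ?_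
    rw [one_div_lt (by exact_mod_cast hn0) hδ]
    exact hn
  have h1 := hu _ _ hd
  rw [Real.dist_eq] at h1
  simp only [hK, one_re] at h1
  linarith [(abs_lt.1 h1).1]

/-- A based homotopy in the sphere lifts to unitaries supported on `S`. -/
lemma exists_lift {S : Finset ι} {e : ι → ℂ} (K : C(I01 × I01, ι → ℂ))
    (hK : ∀ x, UnitOn S (K x)) (h0 : ∀ h, K (h, 0) = e ∧ K (h, 1) = e) :
    ∃ (U : C(I01 × I01, Matrix ι ι ℂ)) (θ : I01 × I01 → ℝ), Continuous θ ∧
      (∀ x, U x ∈ unitary (Matrix ι ι ℂ) ∧ Supp S (U x) ∧ U x *ᵥ K (0, x.2) = K x ∧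
        (U x).det = exp (θ x * I)) ∧
      (∀ h, U (h, 0) = 1 ∧ U (h, 1) = 1 ∧ θ (h, 0) = 0 ∧ θ (h, 1) = 0) ∧
      ∀ t, U (0, t) = 1 := by
  obtain ⟨n, hn, hmesh⟩ := exists_mesh K fun x => (hK x).1
  have hnr : (0 : ℝ) < n := by exact_mod_cast hn
  let g : ℕ → I01 → I01 := fun m h => min h (Set.projIcc 0 1 zero_le_one ((m : ℝ) / n))
  have hgc : ∀ m, Continuous (g m) := fun m => continuous_id.min continuous_const
  have hg0 : ∀ h, g 0 h = 0 := fun h => by
    simp only [g, Nat.cast_zero, zero_div, Set.projIcc_left]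
    exact min_eq_right h.2.1
  have hgn : ∀ h, g n h = h := fun h => by
    simp only [g, div_self hnr.ne', Set.projIcc_right]
    exact min_eq_left h.2.2
  have hgz : ∀ m, g m 0 = 0 := fun m =>
    min_eq_left (Subtype.coe_le_coe.1 (Set.projIcc 0 1 zero_le_one ((m : ℝ) / n)).2.1)
  have hstep : ∀ m h, |((g m h : I01) : ℝ) - g (m + 1) h| ≤ 1 / n := fun m h => by
    have hcoe : ∀ a b : I01, ((min a b : I01) : ℝ) = min (a : ℝ) b := fun a b => by
      rcases le_total a b with h | h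
      · rw [min_eq_left h, min_eq_left (Subtype.coe_le_coe.2 h)]
      · rw [min_eq_right h, min_eq_right (Subtype.coe_le_coe.2 h)]
    simp only [g, hcoe, Set.coe_projIcc]
    refine (abs_min_sub_min_le_max _ _ _ _).trans ?_
    rw [sub_self, abs_zero]
    refine max_le (by positivity) ((abs_max_sub_max_le_max _ _ _ _).trans ?_)
    rw [sub_self, abs_zero]
    refine max_le (by positivity) ((abs_min_sub_min_le_max _ _ _ _).trans ?_)
    rw [sub_self, abs_zero]
    refine max_le (by positivity) (le_of_eq ?_)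
    rw [← sub_div, abs_div, abs_of_pos hnr]
    push_cast
    simp
  suffices h : ∀ m, ∃ (U : C(I01 × I01, Matrix ι ι ℂ)) (θ : I01 × I01 → ℝ), Continuous θ ∧
      (∀ x, U x ∈ unitary (Matrix ι ι ℂ) ∧ Supp S (U x) ∧
        U x *ᵥ K (0, x.2) = K (g m x.1, x.2) ∧ (U x).det = exp (θ x * I)) ∧
      (∀ h, U (h, 0) = 1 ∧ U (h, 1) = 1 ∧ θ (h, 0) = 0 ∧ θ (h, 1) = 0) ∧
      ∀ t, U (0, t) = 1 by
    simpa only [hgn] using h n
  intro m
  induction m with
  | zero =>
    exact ⟨1, fun _ => 0, continuous_const, fun x =>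
      ⟨one_mem _, supp_one S, by simp [hg0], by simp⟩, fun h => ⟨rfl, rfl, rfl, rfl⟩, fun t => rfl⟩
  | succ m ih =>
    obtain ⟨U, θ, hθ, hx, hb, hz⟩ := ih
    set p : I01 × I01 → ι → ℂ := fun x => K (g m x.1, x.2)
    set q : I01 × I01 → ι → ℂ := fun x => K (g (m + 1) x.1, x.2)
    have hpc : Continuous p :=
      K.continuous.comp (((hgc m).comp continuous_fst).prodMk continuous_snd)
    have hqc : Continuous q :=
      K.continuous.comp (((hgc (m + 1)).comp continuous_fst).prodMk continuous_snd)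
    have hpq : ∀ x, 0 < (star (p x) ⬝ᵥ q x).re := fun x => hmesh _ _ _ (hstep m x.1)
    have hne : ∀ x, star (p x) ⬝ᵥ q x ≠ 0 := fun x h => by simpa [h] using hpq x
    have hpe : ∀ h, p (h, 0) = e ∧ p (h, 1) = e := fun h => h0 _
    have hqe : ∀ h, q (h, 0) = e ∧ q (h, 1) = e := fun h => h0 _
    have hee : star e ⬝ᵥ e = 1 := (h0 0).1 ▸ (hK _).1
    refine ⟨⟨fun x => rot (p x) (q x) * U x, (continuous_rot hpc hqc (fun x => (hK _).1)
        (fun x => (hK _).1) hne).matrix_mul U.continuous⟩,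
      fun x => (star (p x) ⬝ᵥ q x).arg + θ x, ?_, fun x => ?_, fun h => ?_, fun t => ?_⟩
    · refine (continuous_iff_continuousAt.2 fun x => ?_).add hθ
      exact (continuousAt_arg (Or.inl (hpq x))).comp
        (f := fun x => star (p x) ⬝ᵥ q x) ((hpc.star.dotProduct hqc).continuousAt)
    · obtain ⟨h1, h2, h3, h4⟩ := hx x
      refine ⟨mul_mem (rot_unitary (hK _).1 (hK _).1) h1,
        (supp_rot (hK _).2 (hK _).2).mul h2, ?_, ?_⟩
      · show (rot (p x) (q x) * U x) *ᵥ _ = _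
        rw [← mulVec_mulVec, h3]
        exact rot_mulVec (hK _).1 (hK _).1
      · show (rot (p x) (q x) * U x).det = _
        rw [det_mul, h4, det_rot (hK _).1 (hK _).1, phase_eq_exp (hne x), ← Complex.exp_add]
        push_cast
        ring_nf
    · obtain ⟨h1, h2, h3, h4⟩ := hb h
      simp only [ContinuousMap.coe_mk, (hpe h).1, (hpe h).2, (hqe h).1, (hqe h).2, rot_self hee,
        hee, arg_one, h1, h2, h3, h4, mul_one, add_zero, and_self]
    · show rot (p (0, t)) (q (0, t)) * U (0, t) = 1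
      simp only [p, q, hgz, rot_self (hK _).1, hz, mul_one]

/-- Normalisation. -/
def nrm (x : ι → ℂ) : ι → ℂ := (((Real.sqrt (sq x))⁻¹ : ℝ) : ℂ) • x

omit [DecidableEq ι] in
lemma nrm_unit {S : Finset ι} {x : ι → ℂ} (hx : x ≠ 0) (hs : ∀ i ∉ S, x i = 0) :
    UnitOn S (nrm x) := by
  refine ⟨?_, fun i hi => by simp [nrm, hs i hi]⟩
  rw [nrm, star_smul, smul_dotProduct, dotProduct_smul, dot_self, smul_eq_mul, smul_eq_mul,
    Complex.star_def, conj_ofReal, ← mul_assoc, ← ofReal_mul, ← ofReal_mul]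
  rw [show (Real.sqrt (sq x))⁻¹ * (Real.sqrt (sq x))⁻¹ * sq x = 1 by
    rw [← mul_inv, Real.mul_self_sqrt (sq_pos hx).le, inv_mul_cancel₀ (sq_pos hx).ne']]
  simp

omit [DecidableEq ι] in
lemma nrm_of_unit {x : ι → ℂ} (hx : star x ⬝ᵥ x = 1) : nrm x = x := by
  have : sq x = 1 := by exact_mod_cast (dot_self x).symm.trans hx
  simp [nrm, this]

omit [DecidableEq ι] in
lemma continuous_nrm {X : Type*} [TopologicalSpace X] {f : X → ι → ℂ} (hf : Continuous f)
    (h : ∀ x, f x ≠ 0) : Continuous fun x => nrm (f x) :=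
  (continuous_ofReal.comp (((continuous_sq.comp hf).sqrt).inv₀
    fun x => (Real.sqrt_pos.2 (sq_pos (h x))).ne')).smul hf

/-- Hat functions on the grid of mesh `1/n`. -/
def hat (n m : ℕ) (t : ℝ) : ℝ := max 0 (1 - |n * t - m|)

lemma sum_pair {n : ℕ} {t : ℝ} (ht : t ∈ I01) :
    ∃ a b, a ≤ n ∧ b ≤ n ∧ 0 < hat n a t ∧
      ∀ m ≤ n, m ≠ a → m ≠ b → hat n m t = 0 := by
  have h0 : 0 ≤ (n : ℝ) * t := mul_nonneg n.cast_nonneg ht.1
  have hle : ⌊(n : ℝ) * t⌋₊ ≤ n := Nat.floor_le_of_le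
    (mul_le_of_le_one_right n.cast_nonneg ht.2)
  set a := ⌊(n : ℝ) * t⌋₊ with ha
  have h1 : (a : ℝ) ≤ n * t := Nat.floor_le h0
  have h2 : (n : ℝ) * t < a + 1 := Nat.lt_floor_add_one _
  refine ⟨a, min (a + 1) n, hle, min_le_right _ _, ?_, fun m hm hma hmb => ?_⟩
  · refine lt_max_of_lt_right ?_
    rw [abs_of_nonneg (by linarith)]
    linarith
  · refine max_eq_left ?_
    rcases lt_trichotomy m a with h | h | h
    · have : (m : ℝ) + 1 ≤ a := by exact_mod_cast h
      rw [abs_of_nonneg (by linarith)]; linarith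
    · exact absurd h hma
    · have : (a : ℝ) + 2 ≤ m := by
        have : a + 2 ≤ m := by omega
        exact_mod_cast this
      rw [abs_of_nonpos (by linarith)]; linarith

lemma vandermonde_three {x y z : ℝ} {A B α β : Fin 3 → ℝ}
    (h : ∀ i, ![1, 1, 1] i = α i * A 0 + β i * B 0)
    (h' : ∀ i, ![x, y, z] i = α i * A 1 + β i * B 1)
    (h'' : ∀ i, ![x ^ 2, y ^ 2, z ^ 2] i = α i * A 2 + β i * B 2) :
    (y - x) * (z - x) * (z - y) = 0 := by
  have e : (y - x) * (z - x) * (z - y) =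
      ![1, 1, 1] 0 * (![x, y, z] 1 * ![x ^ 2, y ^ 2, z ^ 2] 2 -
        ![x, y, z] 2 * ![x ^ 2, y ^ 2, z ^ 2] 1) -
      ![1, 1, 1] 1 * (![x, y, z] 0 * ![x ^ 2, y ^ 2, z ^ 2] 2 -
        ![x, y, z] 2 * ![x ^ 2, y ^ 2, z ^ 2] 0) +
      ![1, 1, 1] 2 * (![x, y, z] 0 * ![x ^ 2, y ^ 2, z ^ 2] 1 -
        ![x, y, z] 1 * ![x ^ 2, y ^ 2, z ^ 2] 0) := by
    simp
    ring
  rw [e, h 0, h 1, h 2, h' 0, h' 1, h' 2, h'' 0, h'' 1, h'' 2]
  ring

/-- A based loop in the sphere of `ℂ^S` is carried to the constant loop by two based homotopies. -/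
lemma exists_contraction {S : Finset ι} {k j : ι} (hk : k ∈ S) (hj : j ∈ S) (hjk : j ≠ k)
    (v : C(I01, ι → ℂ)) (hv : ∀ t, UnitOn S (v t)) (hv0 : v 0 = Pi.single k 1)
    (hv1 : v 1 = Pi.single k 1) :
    ∃ K₁ K₂ : C(I01 × I01, ι → ℂ), (∀ x, UnitOn S (K₁ x) ∧ UnitOn S (K₂ x)) ∧
      (∀ h, (K₁ (h, 0) = Pi.single k 1 ∧ K₁ (h, 1) = Pi.single k 1) ∧
        (K₂ (h, 0) = Pi.single k 1 ∧ K₂ (h, 1) = Pi.single k 1)) ∧
      ∀ t, K₁ (0, t) = v t ∧ K₁ (1, t) = K₂ (0, t) ∧ K₂ (1, t) = Pi.single k 1 := by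
  classical
  set e : ι → ℂ := Pi.single k 1 with he
  obtain ⟨n, hn, hmesh⟩ := exists_mesh
    ⟨fun x => v x.1, v.continuous.comp continuous_fst⟩ fun x => (hv _).1
  have hnr : (0 : ℝ) < n := by exact_mod_cast hn
  let node : ℕ → I01 := fun m => Set.projIcc 0 1 zero_le_one ((m : ℝ) / n)
  set w : I01 → ι → ℂ :=
    fun t => ∑ m ∈ Finset.range (n + 1), ((hat n m t : ℝ) : ℂ) • v (node m) with hwdef
  have hwc : Continuous w := by
    refine continuous_finsetSum _ fun m _ => (continuous_ofReal.comp ?_).smul continuous_const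
    unfold hat
    fun_prop
  have hws : ∀ t, ∀ i ∉ S, w t i = 0 := fun t i hi => by
    simp [hwdef, (hv _).2 i hi]
  have hvw : ∀ t, 0 < (star (v t) ⬝ᵥ w t).re := fun t => by
    obtain ⟨a, b, ha, hb, hpos, hz⟩ := sum_pair (n := n) t.2
    have key : ∀ m ∈ Finset.range (n + 1), 0 < hat n m t →
        0 < (star (v t) ⬝ᵥ v (node m)).re := fun m hm h => by
      refine hmesh 0 t (node m) ?_
      have hm' : (m : ℝ) ≤ n := by exact_mod_cast Nat.lt_succ_iff.1 (Finset.mem_range.1 hm)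
      have h' : |(n : ℝ) * t - m| < 1 := by
        by_contra hc
        rw [hat, max_eq_left (by linarith)] at h
        exact lt_irrefl 0 h
      rw [show ((node m : I01) : ℝ) = m / n by
        simp only [node, Set.projIcc_of_mem zero_le_one
          (show (m : ℝ) / n ∈ I01 from ⟨by positivity, (div_le_one hnr).2 hm'⟩)]]
      rw [show ((t : ℝ) - m / n) = ((n : ℝ) * t - m) / n by field_simp, abs_div,
        abs_of_pos hnr]
      exact div_le_div_of_nonneg_right h'.le hnr.le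
    simp only [hwdef, dotProduct_sum, dotProduct_smul, smul_eq_mul, re_sum, re_ofReal_mul]
    have haR : a ∈ Finset.range (n + 1) := Finset.mem_range.2 (Nat.lt_succ_of_le ha)
    refine Finset.sum_pos' (fun m hm => ?_) ⟨a, haR, mul_pos hpos (key a haR hpos)⟩
    rcases (show 0 ≤ hat n m t from le_max_left _ _).eq_or_lt with h | h
    · rw [← h, zero_mul]
    · exact (mul_pos h (key m hm h)).le
  have hwne : ∀ t, w t ≠ 0 := fun t h => by simpa [h] using hvw t
  have hwend : ∀ (t : I01) (m₀ : ℕ), m₀ ≤ n → (t : ℝ) = m₀ / n → w t = v (node m₀) := by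
    intro t m₀ hm₀ ht
    have e0 : (n : ℝ) * t = m₀ := by rw [ht]; field_simp
    rw [hwdef]
    simp only
    rw [Finset.sum_eq_single m₀]
    · simp [hat, e0]
    · intro m _ hm
      have : (1 : ℝ) ≤ |(m₀ : ℝ) - m| := by
        rcases lt_or_gt_of_ne hm with h | h
        · have : (m : ℝ) + 1 ≤ m₀ := by exact_mod_cast h
          rw [abs_of_nonneg (by linarith)]; linarith
        · have : (m₀ : ℝ) + 1 ≤ m := by exact_mod_cast h
          rw [abs_of_nonpos (by linarith)]; linarith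
      rw [hat, e0, max_eq_left (by linarith)]
      simp
    · intro h; exact absurd (Finset.mem_range.2 (by omega)) h
  have hw0 : w 0 = e := by
    rw [hwend 0 0 (Nat.zero_le _) (by simp), ← hv0]
    congr 1
    simp [node]
  have hw1 : w 1 = e := by
    rw [hwend 1 n le_rfl (by simp [hnr.ne']), ← hv1]
    congr 1
    simp [node, hnr.ne']
  -- a point off every real span of two nodes
  let p : ℝ → ι → ℂ := fun x i =>
    if i = k then (1 : ℂ) + (x : ℂ) * I else if i = j then ((x ^ 2 : ℝ) : ℂ) else 0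
  have hpk : ∀ x, p x k = 1 + (x : ℂ) * I := fun x => if_pos rfl
  have hpj : ∀ x, p x j = ((x ^ 2 : ℝ) : ℂ) := fun x => by simp [p, hjk]
  have hbad : ∀ A B : ι → ℂ, {x : ℝ | ∃ α β : ℝ, p x = (α : ℂ) • A + (β : ℂ) • B}.Finite := by
    intro A B
    by_contra hinf
    obtain ⟨s, hs, hc⟩ := Set.Infinite.exists_subset_card_eq hinf 3
    obtain ⟨x, y, z, hxy, hxz, hyz, rfl⟩ := Finset.card_eq_three.1 hc
    obtain ⟨α₁, β₁, h1⟩ := hs (show x ∈ ({x, y, z} : Finset ℝ) by simp)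
    obtain ⟨α₂, β₂, h2⟩ := hs (show y ∈ ({x, y, z} : Finset ℝ) by simp)
    obtain ⟨α₃, β₃, h3⟩ := hs (show z ∈ ({x, y, z} : Finset ℝ) by simp)
    have c1 : ∀ x α β : ℝ, p x = (α : ℂ) • A + (β : ℂ) • B →
        (1 : ℝ) = α * (A k).re + β * (B k).re ∧ x = α * (A k).im + β * (B k).im ∧
          x ^ 2 = α * (A j).re + β * (B j).re := fun x α β h => by
      have ek := congrFun h k
      have ej := congrFun h j
      simp only [hpk, hpj, Pi.add_apply, Pi.smul_apply, smul_eq_mul] at ek ej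
      exact ⟨by simpa using congrArg re ek, by simpa using congrArg im ek,
        by simpa [← ofReal_pow] using congrArg re ej⟩
    obtain ⟨a1, b1, d1⟩ := c1 _ _ _ h1
    obtain ⟨a2, b2, d2⟩ := c1 _ _ _ h2
    obtain ⟨a3, b3, d3⟩ := c1 _ _ _ h3
    have hV := vandermonde_three (x := x) (y := y) (z := z)
      (A := ![(A k).re, (A k).im, (A j).re]) (B := ![(B k).re, (B k).im, (B j).re])
      (α := ![α₁, α₂, α₃]) (β := ![β₁, β₂, β₃])
      (fun i => by fin_cases i <;> simpa) (fun i => by fin_cases i <;> simpa)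
      (fun i => by fin_cases i <;> simpa)
    simp [sub_eq_zero, hxy.symm, hxz.symm, hyz.symm] at hV
  obtain ⟨x, hx⟩ := ((Finset.range (n + 1) ×ˢ Finset.range (n + 1)).finite_toSet.biUnion
    fun ab _ => hbad (v (node ab.1)) (v (node ab.2))).exists_notMem
  have hps : ∀ i ∉ S, p x i = 0 := fun i hi => by
    have h1 : i ≠ k := fun h => hi (h ▸ hk)
    have h2 : i ≠ j := fun h => hi (h ▸ hj)
    simp [p, h1, h2]
  have hspan : ∀ (t : I01) (γ : ℝ), p x ≠ (γ : ℂ) • w t := by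
    intro t γ h
    obtain ⟨a, b, ha, hb, -, hz⟩ := sum_pair (n := n) t.2
    refine hx (Set.mem_iUnion₂.2 ⟨(a, b), by simp; omega, γ * hat n a t,
      (if a = b then 0 else γ * hat n b t), ?_⟩)
    rw [h, hwdef]
    simp only
    rw [← Finset.sum_subset (s₁ := {a, b})
      (fun m hm => by
        rcases Finset.mem_insert.1 hm with rfl | hm
        · exact Finset.mem_range.2 (by omega)
        · rw [Finset.mem_singleton.1 hm]; exact Finset.mem_range.2 (by omega))
      (fun m hm hne => by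
        simp only [Finset.mem_insert, Finset.mem_singleton, not_or] at hne
        rw [hz m (by have := Finset.mem_range.1 hm; omega) hne.1 hne.2]
        simp)]
    split_ifs with hab
    · subst hab; simp [smul_smul]; norm_cast
    · rw [Finset.sum_pair hab, smul_add, smul_smul, smul_smul]
      push_cast
      rfl
  -- the homotopies
  set H₁ : I01 × I01 → ι → ℂ :=
    fun y => ((1 - (y.1 : ℝ) : ℝ) : ℂ) • v y.2 + ((y.1 : ℝ) : ℂ) • w y.2 with hH₁
  have hH₁ne : ∀ y, H₁ y ≠ 0 := fun y h => by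
    have h' := congrArg (fun z => (star (v y.2) ⬝ᵥ z).re) h
    simp only [hH₁, dotProduct_add, dotProduct_smul, (hv _).1, smul_eq_mul, mul_one,
      dotProduct_zero, add_re, ofReal_re, re_ofReal_mul, zero_re] at h'
    have h1 := y.1.2.1
    have h2 := y.1.2.2
    have h3 := hvw y.2
    rcases h1.eq_or_lt with h4 | h4 <;> nlinarith
  set H₂ : I01 × I01 → ι → ℂ :=
    fun y => ((1 - (y.1 : ℝ) : ℝ) : ℂ) • w y.2 + ((y.1 : ℝ) : ℂ) • p x with hH₂
  have hH₂ne : ∀ y, H₂ y ≠ 0 := fun y h => by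
    by_cases h0 : (y.1 : ℝ) = 0
    · simp [hH₂, h0, hwne] at h
    · refine hspan y.2 (-(1 - (y.1 : ℝ)) / y.1) ?_
      simp only [hH₂] at h
      rw [ofReal_div, ofReal_neg, neg_div, neg_smul, div_eq_inv_mul, ← smul_smul,
        eq_neg_of_add_eq_zero_left h, smul_neg, neg_neg, smul_smul,
        inv_mul_cancel₀ (ofReal_ne_zero.2 h0), one_smul]
  have hH₁s : ∀ y, ∀ i ∉ S, H₁ y i = 0 := fun y i hi => by simp [hH₁, (hv _).2 i hi, hws _ i hi]
  have hH₂s : ∀ y, ∀ i ∉ S, H₂ y i = 0 := fun y i hi => by simp [hH₂, hws _ i hi, hps i hi]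
  have hH₁c : Continuous H₁ := by fun_prop
  have hH₂c : Continuous H₂ := by fun_prop
  have hee : star e ⬝ᵥ e = 1 := (unitOn_single hk).1
  have heU : UnitOn S e := unitOn_single hk
  set base : I01 × I01 → ι → ℂ := fun y => nrm (H₂ (y.1, 0)) with hbase
  have hbU : ∀ y, UnitOn S (base y) := fun y => nrm_unit (hH₂ne _) (hH₂s _)
  have hbne : ∀ y, star (base y) ⬝ᵥ e ≠ 0 := fun y h => by
    have h' : H₂ (y.1, 0) k = 0 := by
      rw [hbase, he, dotProduct_single, mul_one, Pi.star_apply, star_eq_zero] at h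
      simp only [nrm, Pi.smul_apply, smul_eq_mul, mul_eq_zero, ofReal_eq_zero, inv_eq_zero] at h
      exact h.resolve_left (Real.sqrt_pos.2 (sq_pos (hH₂ne _))).ne'
    have := congrArg re h'
    simp [hH₂, hw0, he, hpk] at this
  have hbc : Continuous base :=
    continuous_nrm (hH₂c.comp (continuous_fst.prodMk continuous_const)) fun y => hH₂ne _
  refine ⟨⟨fun y => nrm (H₁ y), continuous_nrm hH₁c hH₁ne⟩,
    ⟨fun y => rot (base y) e *ᵥ nrm (H₂ y),
      (continuous_rot hbc continuous_const (fun y => (hbU y).1) (fun _ => hee) hbne).matrix_mulVec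
        (continuous_nrm hH₂c hH₂ne)⟩, fun y => ⟨nrm_unit (hH₁ne y) (hH₁s y), ?_⟩,
    fun h => ?_, fun t => ?_⟩
  · have hU := nrm_unit (hH₂ne y) (hH₂s y)
    have hu := Unitary.star_mul_self_of_mem (rot_unitary (hbU y).1 hee)
    refine ⟨?_, fun i hi => ?_⟩
    · show star (rot (base y) e *ᵥ nrm (H₂ y)) ⬝ᵥ (rot (base y) e *ᵥ nrm (H₂ y)) = 1
      rw [star_mulVec, ← dotProduct_mulVec, mulVec_mulVec, ← star_eq_conjTranspose, hu,
        one_mulVec, hU.1]
    · show (rot (base y) e *ᵥ nrm (H₂ y)) i = 0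
      rw [mulVec, dotProduct]
      refine Finset.sum_eq_zero fun l _ => ?_
      rw [supp_rot (hbU y).2 heU.2 i l (.inl hi)]
      by_cases hl : i = l
      · subst hl; rw [hU.2 i hi, mul_zero]
      · rw [one_apply_ne hl, zero_mul]
  · have e1 : ∀ c d : ℝ, c + d = 1 → nrm ((c : ℂ) • e + (d : ℂ) • e) = e := fun c d hcd => by
      rw [← add_smul, ← ofReal_add, hcd, ofReal_one, one_smul, nrm_of_unit hee]
    refine ⟨⟨?_, ?_⟩, ?_, ?_⟩
    · show nrm (H₁ (h, 0)) = e
      simp only [hH₁, hv0, hw0]; exact e1 _ _ (by ring)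
    · show nrm (H₁ (h, 1)) = e
      simp only [hH₁, hv1, hw1]; exact e1 _ _ (by ring)
    · show rot (base (h, 0)) e *ᵥ nrm (H₂ (h, 0)) = e
      exact rot_mulVec (hbU (h, 0)).1 hee
    · show rot (base (h, 1)) e *ᵥ nrm (H₂ (h, 1)) = e
      have : H₂ (h, 1) = H₂ (h, 0) := by simp only [hH₂, hw0, hw1]
      rw [this]
      exact rot_mulVec (hbU (h, 1)).1 hee
  · refine ⟨?_, ?_, ?_⟩
    · show nrm (H₁ (0, t)) = v t
      simp [hH₁, nrm_of_unit (hv t).1]
    · show nrm (H₁ (1, t)) = rot (base (0, t)) e *ᵥ nrm (H₂ (0, t))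
      have : base (0, t) = e := by simp [hbase, hH₂, hw0, nrm_of_unit hee]
      rw [this, rot_self hee, one_mulVec]
      simp [hH₁, hH₂]
    · show rot (base (1, t)) e *ᵥ nrm (H₂ (1, t)) = e
      have : H₂ (1, t) = H₂ ((1 : I01), 0) := by simp [hH₂]
      rw [this]
      exact rot_mulVec (hbU (1, t)).1 hee

end

end Vale.P101.ZS.BandP
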