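import Mathlib

/-!
# Rank-one rotations

`ref u μ` multiplies the line of `u` by `μ` and fixes its orthogonal complement; `rot v w` is a
product of two of them carrying the unit vector `v` to the unit vector `w`, continuous while
`⟪v, w⟫ ≠ 0` and supported where `v` and `w` are.
-/

open Matrix

namespace Vale.P101.ZS.BandP

noncomputable section

variable {ι : Type*} [Fintype ι] [DecidableEq ι]

/-- `∑ |u_i|²`. -/
def sq (u : ι → ℂ) : ℝ := ∑ i, Complex.normSq (u i)

omit [DecidableEq ι] in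
lemma dot_self (u : ι → ℂ) : star u ⬝ᵥ u = (sq u : ℂ) := by
  simp only [sq, dotProduct, Pi.star_apply, Complex.ofReal_sum, Complex.normSq_eq_conj_mul_self,
    Complex.star_def]

omit [DecidableEq ι] in
lemma sq_pos {u : ι → ℂ} (hu : u ≠ 0) : 0 < sq u := by
  obtain ⟨i, hi⟩ := Function.ne_iff.1 hu
  exact Finset.sum_pos' (fun j _ => Complex.normSq_nonneg _)
    ⟨i, Finset.mem_univ _, Complex.normSq_pos.2 hi⟩

omit [DecidableEq ι] in
lemma ne_zero_of_unit {u : ι → ℂ} (hu : star u ⬝ᵥ u = 1) : u ≠ 0 := by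
  rintro rfl
  simp at hu

omit [DecidableEq ι] in
@[fun_prop]
lemma continuous_sq : Continuous (sq : (ι → ℂ) → ℝ) :=
  continuous_finsetSum _ fun i _ => Complex.continuous_normSq.comp (continuous_apply i)

/-- Multiplication of the line of `u` by `μ`. -/
def ref (u : ι → ℂ) (μ : ℂ) : Matrix ι ι ℂ :=
  1 + ((μ - 1) / (sq u : ℂ)) • vecMulVec u (star u)

lemma ref_mulVec (u : ι → ℂ) (μ : ℂ) (x : ι → ℂ) :
    ref u μ *ᵥ x = x + ((μ - 1) / (sq u : ℂ) * (star u ⬝ᵥ x)) • u := by
  rw [ref, add_mulVec, one_mulVec, smul_mulVec, vecMulVec_mulVec, op_smul_eq_smul, smul_smul]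

lemma ref_self {u : ι → ℂ} (hu : u ≠ 0) (μ : ℂ) : ref u μ *ᵥ u = μ • u := by
  have h : (sq u : ℂ) ≠ 0 := by exact_mod_cast (sq_pos hu).ne'
  rw [ref_mulVec, dot_self, div_mul_cancel₀ _ h, sub_smul, one_smul]
  abel

lemma ref_mul {u : ι → ℂ} (hu : u ≠ 0) (μ ν : ℂ) : ref u μ * ref u ν = ref u (μ * ν) := by
  have h : (sq u : ℂ) ≠ 0 := by exact_mod_cast (sq_pos hu).ne'
  have e : vecMulVec u (star u) * vecMulVec u (star u) = (sq u : ℂ) • vecMulVec u (star u) := by
    rw [vecMulVec_mul_vecMulVec, dot_self]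
    ext i j; simp [vecMulVec_apply]; ring
  simp only [ref, add_mul, mul_add, one_mul, mul_one, smul_mul_smul_comm, e, smul_smul]
  rw [add_assoc, ← add_smul, ← add_smul]
  congr 2
  field_simp
  ring

lemma ref_one (u : ι → ℂ) : ref u 1 = 1 := by simp [ref]

lemma star_ref (u : ι → ℂ) (μ : ℂ) : star (ref u μ) = ref u (star μ) := by
  simp only [ref, star_eq_conjTranspose, conjTranspose_add, conjTranspose_one, conjTranspose_smul,
    conjTranspose_vecMulVec, star_star, star_div₀, star_sub, star_one, Complex.star_def,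
    Complex.conj_ofReal]

lemma ref_unitary {u : ι → ℂ} (hu : u ≠ 0) {μ : ℂ} (hμ : ‖μ‖ = 1) :
    ref u μ ∈ unitary (Matrix ι ι ℂ) := by
  have h1 : star μ * μ = 1 := by
    rw [Complex.star_def, ← Complex.normSq_eq_conj_mul_self, Complex.normSq_eq_norm_sq, hμ]
    simp
  rw [Unitary.mem_iff, star_ref, ref_mul hu, ref_mul hu, h1, mul_comm μ, h1, ref_one]
  exact ⟨rfl, rfl⟩

lemma det_ref {u : ι → ℂ} (hu : u ≠ 0) (μ : ℂ) : (ref u μ).det = μ := by
  have h : (sq u : ℂ) ≠ 0 := by exact_mod_cast (sq_pos hu).ne'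
  rw [ref, ← smul_vecMulVec, vecMulVec_eq Unit, det_one_add_replicateCol_mul_replicateRow,
    dotProduct_smul, dot_self, smul_eq_mul, div_mul_cancel₀ _ h]
  ring

lemma continuous_ref {X : Type*} [TopologicalSpace X] {u : X → ι → ℂ} {μ : X → ℂ}
    (hu : Continuous u) (hμ : Continuous μ) (h : ∀ x, u x ≠ 0) :
    Continuous fun x => ref (u x) (μ x) := by
  refine continuous_const.add (((hμ.sub continuous_const).div
    (Complex.continuous_ofReal.comp (continuous_sq.comp hu)) fun x => ?_).smul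
    (hu.matrix_vecMulVec hu.star))
  exact Complex.ofReal_ne_zero.2 (sq_pos (h x)).ne'

/-- Equal to the identity outside `S`. -/
def Supp (S : Finset ι) (U : Matrix ι ι ℂ) : Prop :=
  ∀ i j, i ∉ S ∨ j ∉ S → U i j = (1 : Matrix ι ι ℂ) i j

omit [Fintype ι] in
lemma supp_one (S : Finset ι) : Supp S (1 : Matrix ι ι ℂ) := fun _ _ _ => rfl

lemma Supp.mul {S : Finset ι} {U V : Matrix ι ι ℂ} (hU : Supp S U) (hV : Supp S V) :
    Supp S (U * V) := by
  rintro i j (hi | hj)
  · rw [mul_apply, Finset.sum_eq_single i]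
    · rw [hU i i (.inl hi), one_apply_eq, one_mul, hV i j (.inl hi)]
    · intro l _ hl
      rw [hU i l (.inl hi), one_apply_ne (Ne.symm hl), zero_mul]
    · simp
  · rw [mul_apply, Finset.sum_eq_single j]
    · rw [hV j j (.inl hj), one_apply_eq, mul_one, hU i j (.inr hj)]
    · intro l _ hl
      rw [hV l j (.inr hj), one_apply_ne hl, mul_zero]
    · simp

lemma supp_ref {S : Finset ι} {u : ι → ℂ} (hu : ∀ i ∉ S, u i = 0) (μ : ℂ) :
    Supp S (ref u μ) := by
  rintro i j (h | h) <;> simp [ref, vecMulVec_apply, hu _ h]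

/-- The phase of `c`, with value one at zero. -/
def phase (c : ℂ) : ℂ := if c = 0 then 1 else c / (‖c‖ : ℂ)

lemma norm_phase (c : ℂ) : ‖phase c‖ = 1 := by
  unfold phase
  split_ifs with h
  · simp
  · rw [norm_div, Complex.norm_real, norm_norm, div_self (norm_ne_zero_iff.2 h)]

lemma phase_ne_zero (c : ℂ) : phase c ≠ 0 := by
  intro h
  simpa [h] using norm_phase c

lemma norm_mul_phase (c : ℂ) : (‖c‖ : ℂ) * phase c = c := by
  unfold phase
  split_ifs with h
  · simp [h]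
  · rw [mul_div_cancel₀ _ (Complex.ofReal_ne_zero.2 (norm_ne_zero_iff.2 h))]

lemma star_phase_mul (c : ℂ) : star (phase c) * phase c = 1 := by
  rw [Complex.star_def, ← Complex.normSq_eq_conj_mul_self, Complex.normSq_eq_norm_sq,
    norm_phase]
  simp

lemma phase_eq_exp {c : ℂ} (hc : c ≠ 0) : phase c = Complex.exp (c.arg * Complex.I) := by
  rw [phase, if_neg hc, div_eq_iff (Complex.ofReal_ne_zero.2 (norm_ne_zero_iff.2 hc)),
    mul_comm]
  exact (Complex.norm_mul_exp_arg_mul_I c).symm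

/-- The middle vector of the rotation. -/
def mid (v w : ι → ℂ) : ι → ℂ := phase (star v ⬝ᵥ w) • v + w

/-- A rotation taking the unit vector `v` to the unit vector `w`. -/
def rot (v w : ι → ℂ) : Matrix ι ι ℂ :=
  ref (mid v w) (-1) * ref v (-phase (star v ⬝ᵥ w))

variable {v w : ι → ℂ}

omit [DecidableEq ι] in
lemma mid_spec (hv : star v ⬝ᵥ v = 1) (hw : star w ⬝ᵥ w = 1) :
    star (mid v w) ⬝ᵥ (phase (star v ⬝ᵥ w) • v) = 1 + (‖star v ⬝ᵥ w‖ : ℂ) ∧
      (sq (mid v w) : ℂ) = 2 * (1 + (‖star v ⬝ᵥ w‖ : ℂ)) := by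
  set c := star v ⬝ᵥ w with hc
  have hwv : star w ⬝ᵥ v = star c := by rw [hc, ← star_dotProduct_star, star_star, dotProduct_comm]
  have h1 := star_phase_mul c
  have h2 : star c * phase c = (‖c‖ : ℂ) := by
    conv_lhs => arg 1; rw [← norm_mul_phase c]
    rw [star_mul', Complex.star_def, Complex.conj_ofReal, mul_assoc]
    rw [← Complex.star_def, h1, mul_one]
  have h3 : star (phase c) * c = (‖c‖ : ℂ) := by
    conv_lhs => arg 2; rw [← norm_mul_phase c]
    rw [mul_left_comm, h1, mul_one]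
  constructor
  · rw [mid, ← hc, star_add, star_smul, add_dotProduct, smul_dotProduct, dotProduct_smul,
      dotProduct_smul, hv, hwv]
    simp only [smul_eq_mul, mul_one]
    rw [h1, mul_comm (phase c), h2]
  · rw [← dot_self, mid, ← hc, star_add, star_smul, add_dotProduct, dotProduct_add,
      dotProduct_add, smul_dotProduct, smul_dotProduct, dotProduct_smul, dotProduct_smul, hv, hw,
      hwv, ← hc]
    simp only [smul_eq_mul, mul_one]
    rw [h1, mul_comm (phase c), h2, h3]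
    ring

omit [DecidableEq ι] in
lemma mid_ne_zero (hv : star v ⬝ᵥ v = 1) (hw : star w ⬝ᵥ w = 1) : mid v w ≠ 0 := by
  intro h
  have := (mid_spec hv hw).1
  rw [h, star_zero, zero_dotProduct] at this
  have h2 := congrArg Complex.re this
  simp at h2
  linarith [norm_nonneg (star v ⬝ᵥ w)]

lemma rot_mulVec (hv : star v ⬝ᵥ v = 1) (hw : star w ⬝ᵥ w = 1) : rot v w *ᵥ v = w := by
  set p := phase (star v ⬝ᵥ w) with hp
  obtain ⟨h1, h2⟩ := mid_spec hv hw
  have hne : (1 : ℂ) + (‖star v ⬝ᵥ w‖ : ℂ) ≠ 0 := by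
    intro h
    have := congrArg Complex.re h
    simp at this
    linarith [norm_nonneg (star v ⬝ᵥ w)]
  rw [rot, ← mulVec_mulVec, ref_self (ne_zero_of_unit hv), neg_smul, mulVec_neg, ← hp, ref_mulVec,
    h1, h2]
  have e : ((-1 : ℂ) - 1) / (2 * (1 + (‖star v ⬝ᵥ w‖ : ℂ))) * (1 + (‖star v ⬝ᵥ w‖ : ℂ)) = -1 := by
    field_simp
    ring
  rw [e, mid, ← hp]
  module

lemma rot_self (hv : star v ⬝ᵥ v = 1) : rot v v = 1 := by
  have h0 := ne_zero_of_unit hv
  have hp : phase (star v ⬝ᵥ v) = 1 := by simp [hv, phase]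
  have hm : mid v v = (2 : ℂ) • v := by rw [mid, hp, one_smul, two_smul]
  have e : ref ((2 : ℂ) • v) (-1) = ref v (-1) := by
    have hs : (sq ((2 : ℂ) • v) : ℂ) = 4 * (sq v : ℂ) := by
      rw [← dot_self, ← dot_self, star_smul, smul_dotProduct, dotProduct_smul]
      simp
      ring
    ext i j
    simp [ref, hs, vecMulVec_apply]
    ring
  rw [rot, hm, e, hp, ref_mul h0, neg_mul_neg, one_mul, ref_one]

lemma rot_unitary (hv : star v ⬝ᵥ v = 1) (hw : star w ⬝ᵥ w = 1) :
    rot v w ∈ unitary (Matrix ι ι ℂ) :=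
  mul_mem (ref_unitary (mid_ne_zero hv hw) (by simp))
    (ref_unitary (ne_zero_of_unit hv) (by rw [norm_neg, norm_phase]))

lemma det_rot (hv : star v ⬝ᵥ v = 1) (hw : star w ⬝ᵥ w = 1) :
    (rot v w).det = phase (star v ⬝ᵥ w) := by
  rw [rot, det_mul, det_ref (mid_ne_zero hv hw), det_ref (ne_zero_of_unit hv)]
  ring

lemma supp_rot {S : Finset ι} (hv : ∀ i ∉ S, v i = 0) (hw : ∀ i ∉ S, w i = 0) :
    Supp S (rot v w) :=
  (supp_ref (fun i hi => by simp [mid, hv i hi, hw i hi]) _).mul (supp_ref hv _)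

lemma continuous_rot {X : Type*} [TopologicalSpace X] {v w : X → ι → ℂ} (hv : Continuous v)
    (hw : Continuous w) (hv1 : ∀ x, star (v x) ⬝ᵥ v x = 1) (hw1 : ∀ x, star (w x) ⬝ᵥ w x = 1)
    (hc : ∀ x, star (v x) ⬝ᵥ w x ≠ 0) : Continuous fun x => rot (v x) (w x) := by
  have hd : Continuous fun x => star (v x) ⬝ᵥ w x := hv.star.dotProduct hw
  have hp : Continuous fun x => phase (star (v x) ⬝ᵥ w x) := by
    have : (fun x => phase (star (v x) ⬝ᵥ w x)) =
        fun x => (star (v x) ⬝ᵥ w x) / (‖star (v x) ⬝ᵥ w x‖ : ℂ) :=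
      funext fun x => by rw [phase, if_neg (hc x)]
    rw [this]
    exact hd.div (Complex.continuous_ofReal.comp hd.norm)
      fun x => Complex.ofReal_ne_zero.2 (norm_ne_zero_iff.2 (hc x))
  exact (continuous_ref ((hp.smul hv).add hw) continuous_const
    fun x => mid_ne_zero (hv1 x) (hw1 x)).matrix_mul
    (continuous_ref hv hp.neg fun x => ne_zero_of_unit (hv1 x))

end

end Vale.P101.ZS.BandP
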